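import Vale.Agent.P251EJ.DefsS

/-!
# P251EJ, row STAB: from the unstable to the stable statement
-/

open CategoryTheory MonoidalCategory Limits Pretriangulated

universe v u

namespace Vale.Agent.P251EJ99

open Vale.Agent.P251 Vale.Agent.P251.T Vale.Agent.P251.G Vale.Agent.P251.G.LC
  Vale.Agent.P251.I Vale.Agent.P251.M Vale.Agent.P251EJ

variable {T : Type u} [Category.{v} T] [Preadditive T] [HasZeroObject T]
    [HasShift T ℤ] [∀ n : ℤ, (shiftFunctor T n).Additive] [Pretriangulated T]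
    [MonoidalCategory T] [SymmetricCategory T] [TensorTriangulated T] (F : SpaceFunctor T)

/-- stable maps between suspension spectra of spheres are torsion -/
theorem tor_sph (h : TorS F) {a b : ℕ} (hb : 1 ≤ b) (hab : b < a)
    (g : F.S.obj (SphF a) ⟶ F.S.obj (SphF b)) : ∃ m : ℤ, m ≠ 0 ∧ m • g = 0 := by
  obtain ⟨n, k, hk⟩ := F.full g
  let e : ∀ c : ℕ, SphF c ⊗ SphF n ≅ SphF (c + n) := fun c =>
    fcIso (X := SphF c ⊗ SphF n) (Y := SphF (c + n)) (sphTensor c n)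
  obtain ⟨m, hm, h1⟩ := h (a + n) (b + n) (by omega) (by omega) ((e a).inv ≫ k ≫ (e b).hom)
  refine ⟨m, hm, ?_⟩
  have h2 : m • F.S.map k = 0 := by
    rw [Functor.map_comp, Functor.map_comp, ← Preadditive.comp_zsmul,
      ← Preadditive.zsmul_comp] at h1
    rw [← cancel_epi (F.S.map (e a).inv), ← cancel_mono (F.S.map (e b).hom), Category.assoc, h1,
      comp_zero, zero_comp]
  have h3 : m • (g ▷ F.S.obj (SphF n)) = 0 := by
    rw [hk, ← Preadditive.comp_zsmul, ← Preadditive.zsmul_comp] at h2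
    rw [← cancel_epi (Functor.Monoidal.μIso F.S (SphF a) (SphF n)).inv,
      ← cancel_mono (Functor.Monoidal.μIso F.S (SphF b) (SphF n)).hom, Category.assoc, h2,
      comp_zero, zero_comp]
  have h4 : (m • g) ▷ F.S.obj (SphF n) = 0 :=
    (((tensoringRight T).obj (F.S.obj (SphF n))).map_zsmul (f := g) (r := m)).trans h3
  refine eq_zero_of_whiskerRight_shift _ (n : ℤ) ?_
  have h5 := MonoidalCategory.whisker_exchange (m • g) (sphIso F n).hom
  rw [h4, zero_comp] at h5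
  rw [← cancel_epi (F.S.obj (SphF a) ◁ (sphIso F n).hom), h5, comp_zero]

/-- row STAB -/
theorem stabS : StabS F := by
  intro h k hk f
  obtain ⟨a, rfl⟩ : ∃ a : ℕ, k = (a : ℤ) := ⟨k.toNat, by omega⟩
  let e : F.S.obj (SphF (a + 1)) ≅ ((𝟙_ T)⟦(a : ℤ)⟧)⟦((1 : ℕ) : ℤ)⟧ :=
    sphIso F (a + 1) ≪≫
      (shiftFunctorAdd' T (a : ℤ) ((1 : ℕ) : ℤ) ((a + 1 : ℕ) : ℤ) (by push_cast; ring)).app (𝟙_ T)
  obtain ⟨m, hm, h1⟩ := tor_sph F h (a := a + 1) (b := 1) le_rfl (by omega)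
    (e.hom ≫ f⟦((1 : ℕ) : ℤ)⟧' ≫ (sphIso F 1).inv)
  refine ⟨m, hm, (shiftFunctor T ((1 : ℕ) : ℤ)).map_injective ?_⟩
  rw [← Preadditive.comp_zsmul, ← Preadditive.zsmul_comp] at h1
  rw [Functor.map_zero, Functor.map_zsmul, ← cancel_epi e.hom, ← cancel_mono (sphIso F 1).inv,
    Category.assoc, h1, comp_zero, zero_comp]

end Vale.Agent.P251EJ99
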