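import Vale.Agent.P251EJ.DefsS
import Mathlib.GroupTheory.GroupAction.DomAct.Basic
import Mathlib.Topology.Algebra.ConstMulAction

/-!
# P251EJ, row SP: the symmetric product
-/

namespace Vale.Agent.P251EJ99

open Vale.Agent.P251EJ

/-- row SP -/
theorem symS : SymS := by
  intro M X _ _ _
  let G := (Equiv.Perm (Fin M))ᵈᵐᵃ
  have : Finite G := Finite.of_equiv _ (DomMulAct.mk (M := Equiv.Perm (Fin M)))
  have : ContinuousConstSMul G (Fin M → X) :=
    ⟨fun g => continuous_pi fun i => continuous_apply _⟩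
  refine ⟨Quotient (MulAction.orbitRel G (Fin M → X)), inferInstance, inferInstance,
    t2Space_of_properlyDiscontinuousSMul_of_t2Space,
    ⟨Quotient.mk _, continuous_quotient_mk'⟩, Quotient.mk_surjective, fun y y' => ?_⟩
  change Quotient.mk _ y = Quotient.mk _ y' ↔ _
  rw [eq_comm, Quotient.eq, MulAction.orbitRel_apply, MulAction.mem_orbit_iff]
  constructor
  · rintro ⟨g, rfl⟩
    exact ⟨DomMulAct.mk.symm g, rfl⟩
  · rintro ⟨s, rfl⟩
    exact ⟨DomMulAct.mk s, rfl⟩

end Vale.Agent.P251EJ99
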